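import Vale.Agent.P260.R2.H716.Fam

/-!
# Maps with a homotopy section between closed manifolds: connected fibres

Let `f : M → N` be a map between closed topological manifolds of dimension `n ≥ 1` which has a
homotopy section (for instance a homotopy equivalence), `M` connected.

* If some fibre of `f` is not connected, then there is a nonempty open set `O` in `M` which can be
  removed without changing the image of `f`, and which meets no connected fibre. So all fibres are
  connected as soon as the points in connected fibres are dense in `M`, and as soon as no proper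
  closed subset of `M` is mapped onto `N`.
* If all fibres are connected and totally disconnected, `f` is a homeomorphism.
* Let `f` be equivariant for two families of homeomorphisms of `M` and `N` with the same index
  set. One connected fibre through a point of `M` with a dense orbit is enough for all fibres to
  be connected. If the fibres are connected or totally disconnected, one fibre which is connected
  or has at most two points, over a point of `N` with a dense orbit, is enough. If all orbits in
  `N` are dense and the fibres over some nonempty open set are finite, `f` is a homeomorphism.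
* For all metrics: if `f` is `K`-Lipschitz (or a `K`-Lipschitz uniform limit of maps with homotopy
  sections) and `Kⁿ Hⁿ(M) ≤ Hⁿ(N)`, `Hⁿ(M) < ∞` (Hausdorff measures), then all fibres are connected
  and `f` multiplies volumes by `Kⁿ`.
-/

open Set Topology MeasureTheory
open scoped ENNReal NNReal

universe u v w

theorem Vale.Agent.Results.P260.DenseConnectedFibres.result (n : ℕ) (hn : 0 < n) :
    (∀ (M : Type u) (N : Type v) [TopologicalSpace M] [T2Space M] [CompactSpace M]
      [ConnectedSpace M] [ChartedSpace (EuclideanSpace ℝ (Fin n)) M]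
      [TopologicalSpace N] [T2Space N] [CompactSpace N]
      [ChartedSpace (EuclideanSpace ℝ (Fin n)) N]
      (f : C(M, N)) (g : C(N, M)), (f.comp g).Homotopic (ContinuousMap.id N) →
      ((∃ y, ¬ IsConnected (f ⁻¹' {y})) →
        ∃ O : Set M, IsOpen O ∧ O.Nonempty ∧ f '' Oᶜ = univ ∧
          ∀ x ∈ O, ¬ IsConnected (f ⁻¹' {f x})) ∧
      ((∀ y, IsConnected (f ⁻¹' {y})) → (∀ y, IsTotallyDisconnected (f ⁻¹' {y})) →
        IsHomeomorph f) ∧
      (∀ (G : Type w) (a : G → M ≃ₜ M) (b : G → N ≃ₜ N), (∀ s x, f (a s x) = b s (f x)) →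
        (∀ x₀, Dense (range fun s => a s x₀) → IsConnected (f ⁻¹' {f x₀}) →
          ∀ y, IsConnected (f ⁻¹' {y})) ∧
        (∀ y₀, Dense (range fun s => b s y₀) →
          (∀ y, IsConnected (f ⁻¹' {y}) ∨ IsTotallyDisconnected (f ⁻¹' {y})) →
          IsConnected (f ⁻¹' {y₀}) ∨ (f ⁻¹' {y₀}).encard ≤ 2 →
          ∀ y, IsConnected (f ⁻¹' {y})) ∧
        ((∀ y, Dense (range fun s => b s y)) →
          (∃ V : Set N, IsOpen V ∧ V.Nonempty ∧ ∀ y ∈ V, (f ⁻¹' {y}).Finite) →
          IsHomeomorph f))) ∧
    (∀ (M : Type u) (N : Type v) [MetricSpace M] [CompactSpace M] [ConnectedSpace M]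
      [ChartedSpace (EuclideanSpace ℝ (Fin n)) M] [MeasurableSpace M] [BorelSpace M]
      [MetricSpace N] [CompactSpace N] [ChartedSpace (EuclideanSpace ℝ (Fin n)) N]
      [MeasurableSpace N] [BorelSpace N] (K : ℝ≥0) (f : C(M, N)),
      (μH[(n : ℝ)] : Measure M) univ ≠ ⊤ →
      (K : ℝ≥0∞) ^ n * (μH[(n : ℝ)] : Measure M) univ ≤ (μH[(n : ℝ)] : Measure N) univ →
      LipschitzWith K f →
      (∀ ε : ℝ, 0 < ε → ∃ (h : C(M, N)) (g : C(N, M)),
        (h.comp g).Homotopic (ContinuousMap.id N) ∧ ∀ x, dist (f x) (h x) < ε) →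
      (∀ y, IsConnected (f ⁻¹' {y})) ∧
        ∀ B : Set N, IsOpen B → (K : ℝ≥0∞) ^ n * (μH[(n : ℝ)] : Measure M) (f ⁻¹' B) =
          (μH[(n : ℝ)] : Measure N) B) := by
  refine ⟨?_, ?_⟩
  · intro M N _ _ _ _ _ _ _ _ _ f g hfg
    refine ⟨?_, ?_, ?_⟩
    · rintro ⟨y, hy⟩
      exact Vale.Agent.P260.R2.H716.top_split (n := n) hn f g hfg hy
    · intro hc ht
      exact Vale.Agent.P260.H283.homeo_of_fibres f
        (Vale.Agent.P260.H283.top_surj (n := n) hn f g hfg) (fun y => (hc y).isPreconnected) ht
    · intro G a b he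
      refine ⟨fun x₀ hd hx₀ y => ?_, fun y₀ hd hfib hy₀ y => ?_, ?_⟩
      · exact Vale.Agent.P260.R2.H716.fam_orbit (n := n) hn f g hfg a b he hd hx₀.isPreconnected y
      · exact Vale.Agent.P260.R2.H716.fam_orbit_two (n := n) hn f g hfg a b he
          (fun y => (hfib y).imp (fun h => h.isPreconnected) id) hd
          (hy₀.imp (fun h => h.isPreconnected) id) y
      · rintro hmin ⟨V, hV, hVne, hfin⟩
        exact Vale.Agent.P260.R3.H283.act_finite (n := n) hn f g hfg a b he hmin hV hVne hfin
  · intro M N _ _ _ _ _ _ _ _ _ _ _ K f hfin hvol hlip hs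
    have h := Vale.Agent.P260.R2.H716.vol_main hn hfin hvol f hlip hs
    exact ⟨h.1, h.2.1⟩
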