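import Vale.Agent.P260.Top

/-!
# P260 (the Borel conjecture in dimension four): multiplicity rigidity

Let `f : M → N` be a map with a right homotopy inverse (for example a homotopy equivalence) between
closed connected `n`-manifolds, `n ≥ 1`.

* If, outside a closed set `E ⊆ N` whose preimage has no interior, every fibre of `f` is the union
  of at most two cell-like compact sets (for example, has at most two points), then every fibre of
  `f` is connected; if moreover the fibres are totally disconnected, `f` is a homeomorphism.
* If `g ∘ f` is homotopic to the identity and its iterates are equicontinuous, then `f` is a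
  homeomorphism.
-/

set_option autoImplicit false

namespace Vale.Agent.Results.P260.MultiplicityRigidity

open Vale.Agent.P260

theorem result :
    (∀ (n : ℕ), 0 < n → ∀ (M N : Type*)
      [TopologicalSpace M] [T2Space M] [CompactSpace M] [ConnectedSpace M]
      [ChartedSpace (EuclideanSpace ℝ (Fin n)) M]
      [TopologicalSpace N] [T2Space N] [CompactSpace N] [ConnectedSpace N]
      [ChartedSpace (EuclideanSpace ℝ (Fin n)) N]
      (f : C(M, N)) (g : C(N, M)), (f.comp g).Homotopic (ContinuousMap.id N) →
      ∀ E : Set N, IsClosed E → interior (f ⁻¹' E) = ∅ →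
        ((∀ y ∉ E, ∃ F₁ F₂ : Set M, CellLike F₁ ∧ CellLike F₂ ∧ f ⁻¹' {y} = F₁ ∪ F₂) ∨
          (∀ y ∉ E, (f ⁻¹' {y}).encard ≤ 2)) →
        (∀ y, IsConnected (f ⁻¹' {y})) ∧
          ((∀ y, IsTotallyDisconnected (f ⁻¹' {y})) → IsHomeomorph f)) ∧
    (∀ (n : ℕ), 0 < n → ∀ (M N : Type*)
      [MetricSpace M] [CompactSpace M] [ConnectedSpace M]
      [ChartedSpace (EuclideanSpace ℝ (Fin n)) M]
      [TopologicalSpace N] [T2Space N] [CompactSpace N] [ConnectedSpace N]
      [ChartedSpace (EuclideanSpace ℝ (Fin n)) N]
      (f : C(M, N)) (g : C(N, M)), (g.comp f).Homotopic (ContinuousMap.id M) →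
      Equicontinuous (fun k : ℕ => (g ∘ f)^[k]) → IsHomeomorph f) := by
  refine ⟨?_, ?_⟩
  · intro n hn M N _ _ _ _ _ _ _ _ _ _ f g hfg E hE hint hcell
    have hsurj : Function.Surjective f := surj_top hn f g hfg
    have hcell' : ∀ y ∉ E, ∃ F₁ F₂ : Set M, CellLike F₁ ∧ CellLike F₂ ∧
        f ⁻¹' {y} = F₁ ∪ F₂ := by
      rcases hcell with h | h
      · exact h
      · intro y hy
        obtain ⟨a, ha⟩ := hsurj y
        have h2 := h y hy
        obtain ⟨b, hb⟩ : ∃ b, f ⁻¹' {y} = {a} ∪ {b} := by
          by_contra hcon
          push Not at hcon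
          have h3 : ∃ b, b ∈ f ⁻¹' {y} ∧ b ≠ a := by
            by_contra h4
            push Not at h4
            refine hcon a ?_
            rw [Set.union_self]
            exact Set.Subset.antisymm (fun x hx => h4 x hx) (Set.singleton_subset_iff.2 ha)
          obtain ⟨b, hb, hba⟩ := h3
          refine hcon b ?_
          have hsub : ({a} ∪ {b} : Set M) ⊆ f ⁻¹' {y} :=
            Set.union_subset (Set.singleton_subset_iff.2 ha) (Set.singleton_subset_iff.2 hb)
          have hfin : (f ⁻¹' {y}).Finite := Set.finite_of_encard_le_coe h2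
          have h5 : (({a} ∪ {b} : Set M)).encard = 2 := by
            rw [Set.singleton_union, Set.encard_pair hba.symm]
          exact (hfin.eq_of_subset_of_encard_le' hsub (by rw [h5]; exact h2)).symm
        exact ⟨{a}, {b}, cellLike_singleton (n := n) a, cellLike_singleton (n := n) b, hb⟩
    have hc := conn_top hn f g hfg hE hint hcell'
    exact ⟨hc, fun ht => homeo_of_conn f hsurj (fun y => (hc y).isPreconnected) ht⟩
  · intro n hn M N _ _ _ _ _ _ _ _ _ f g hgf heq
    have hs : Function.Surjective (g ∘ f) := by
      have h := surj_top (n := n) hn (g.comp f) (ContinuousMap.id M)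
        (by rw [ContinuousMap.comp_id]; exact hgf)
      exact h
    have hi : Function.Injective (g ∘ f) :=
      inj_of_equi hs (CompactSpace.uniformEquicontinuous_of_equicontinuous heq)
    exact homeo_of_inj n f (Function.Injective.of_comp hi)

end Vale.Agent.Results.P260.MultiplicityRigidity
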