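import Vale.Agent.P260.H283.Top

/-!
# Homotopy equivalences between closed manifolds: finite fibres and odd sheets

Let `f : M → N` be a map between closed manifolds of dimension `n ≥ 1` which has a homotopy section
(for instance a homotopy equivalence), `M` connected.

* If the fibres near `y` are finite and the fibre over `y` is not a point, then, over some nonempty
  open set near `y`, the map `f` is a trivial covering with an odd number, at least three, of
  sheets.
* If the fibres near `y` are connected or totally disconnected and the fibre over `y` is not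
  connected, then there is a nonempty open set near `y` over which all fibres are disconnected and
  have at least three points.
* Global consequences: the fibres are all connected if such open sets are excluded over the
  complement of a closed set which is countable, or has a preimage without interior.
* `f` is homotopic to a homeomorphism if and only if it is homotopic to a light map with at most
  two points in the fibres over a dense set, and if and only if it is homotopic to a map with finite
  fibres which, over a dense set, do not have an odd number, at least three, of points.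
* If `g` is a homotopy inverse of `f` and two different iterates of `g ∘ f` are uniformly close, at
  every scale, then `f` is a homeomorphism.
* If, for some metrics, there are mutually inverse homotopy equivalences the product of whose
  Lipschitz constants is arbitrarily close to one, then the manifolds are homothetic.
-/

open Set Topology TopologicalSpace

universe u v

theorem Vale.Agent.Results.P260.OddSheets.result (n : ℕ) (hn : 0 < n) :
    (∀ (M : Type u) (N : Type v) [TopologicalSpace M] [T2Space M] [CompactSpace M]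
      [ConnectedSpace M] [ChartedSpace (EuclideanSpace ℝ (Fin n)) M]
      [TopologicalSpace N] [T2Space N] [CompactSpace N]
      [ChartedSpace (EuclideanSpace ℝ (Fin n)) N]
      (f : C(M, N)) (g : C(N, M)), (f.comp g).Homotopic (ContinuousMap.id N) →
      (∀ (y : N) (W : Set N), W ∈ 𝓝 y → (∀ z ∈ W, (f ⁻¹' {z}).Finite) →
        ¬ (f ⁻¹' {y}).Subsingleton →
        ∃ V : Set N, IsOpen V ∧ V.Nonempty ∧ V ⊆ W ∧ ∃ m : ℕ, Odd m ∧ 3 ≤ m ∧
          ∃ U : Fin m → Set M, (∀ i, IsOpen (U i)) ∧ (∀ i j, i ≠ j → Disjoint (U i) (U j)) ∧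
            f ⁻¹' V = ⋃ i, U i ∧ ∀ i, IsOpenEmbedding (fun x : U i => f x) ∧ f '' U i = V) ∧
      (∀ (y : N) (W : Set N), W ∈ 𝓝 y →
        (∀ z ∈ W, IsPreconnected (f ⁻¹' {z}) ∨ IsTotallyDisconnected (f ⁻¹' {z})) →
        ¬ IsPreconnected (f ⁻¹' {y}) →
        ∃ V : Set N, IsOpen V ∧ V.Nonempty ∧ V ⊆ W ∧
          ∀ z ∈ V, ¬ IsPreconnected (f ⁻¹' {z}) ∧ 3 ≤ (f ⁻¹' {z}).encard) ∧
      (∀ S : Set N, IsClosed S → (2 ≤ n ∧ S.Countable) ∨ interior (f ⁻¹' S) = ∅ →
        ((∀ y ∉ S, IsPreconnected (f ⁻¹' {y}) ∨ IsTotallyDisconnected (f ⁻¹' {y})) ∧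
            Sᶜ ⊆ closure {y | IsPreconnected (f ⁻¹' {y}) ∨ (f ⁻¹' {y}).encard ≤ 2}) ∨
          ((∀ y ∉ S, (f ⁻¹' {y}).Finite) ∧
            Sᶜ ⊆ closure {y | ¬ (Odd (f ⁻¹' {y}).ncard ∧ 3 ≤ (f ⁻¹' {y}).ncard)}) →
        (∀ y, IsConnected (f ⁻¹' {y})) ∧
          ((∀ y, IsTotallyDisconnected (f ⁻¹' {y})) → IsHomeomorph f)) ∧
      ((∃ e : M ≃ₜ N, f.Homotopic (e : C(M, N))) ↔
        ∃ f' : C(M, N), f.Homotopic f' ∧ (∀ y, IsTotallyDisconnected (f' ⁻¹' {y})) ∧
          Dense {y | (f' ⁻¹' {y}).encard ≤ 2}) ∧
      ((∃ e : M ≃ₜ N, f.Homotopic (e : C(M, N))) ↔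
        ∃ f' : C(M, N), f.Homotopic f' ∧ (∀ y, (f' ⁻¹' {y}).Finite) ∧
          Dense {y | ¬ (Odd (f' ⁻¹' {y}).ncard ∧ 3 ≤ (f' ⁻¹' {y}).ncard)}) ∧
      ((g.comp f).Homotopic (ContinuousMap.id M) →
        (∀ U : Set (M × M), IsOpen U → diagonal M ⊆ U →
          ∃ k l : ℕ, k < l ∧ ∀ x, ((g ∘ f)^[k] x, (g ∘ f)^[l] x) ∈ U) →
        IsHomeomorph f)) ∧
    (∀ (M : Type u) (N : Type v) [MetricSpace M] [CompactSpace M] [ConnectedSpace M]
      [ChartedSpace (EuclideanSpace ℝ (Fin n)) M] [MetricSpace N] [CompactSpace N]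
      [ChartedSpace (EuclideanSpace ℝ (Fin n)) N],
      (∀ ε : ℝ, 0 < ε → ∃ (f : C(M, N)) (g : C(N, M)) (K L : NNReal),
        (f.comp g).Homotopic (ContinuousMap.id N) ∧ (g.comp f).Homotopic (ContinuousMap.id M) ∧
        LipschitzWith K f ∧ LipschitzWith L g ∧ (K : ℝ) * L ≤ 1 + ε) →
      ∃ (R : ℝ) (e : M ≃ₜ N), 0 < R ∧ ∀ x x', dist (e x) (e x') = R * dist x x') := by
  refine ⟨?_, ?_⟩
  · intro M N _ _ _ _ _ _ _ _ _ f g hfg
    have hone : ∀ (e : M ≃ₜ N) (y : N), ((e : C(M, N)) ⁻¹' {y}).Subsingleton := by
      intro e y a ha b hb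
      have ha' : e a = y := ha
      have hb' : e b = y := hb
      exact e.injective (ha'.trans hb'.symm)
    have hto : ∀ f' : C(M, N), f.Homotopic f' → IsHomeomorph f' →
        ∃ e : M ≃ₜ N, f.Homotopic (e : C(M, N)) := by
      intro f' hf' hh
      refine ⟨hh.homeomorph, ?_⟩
      have : ((hh.homeomorph : M ≃ₜ N) : C(M, N)) = f' := by
        ext x
        rfl
      rw [this]
      exact hf'
    have hsec : ∀ f' : C(M, N), f.Homotopic f' →
        (f'.comp g).Homotopic (ContinuousMap.id N) := fun f' hf' =>
      (ContinuousMap.Homotopic.comp hf'.symm (ContinuousMap.Homotopic.refl g)).trans hfg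
    refine ⟨?_, ?_, ?_, ?_, ?_, ?_⟩
    · intro y W hW hfib hny
      exact Vale.Agent.P260.H283.top_cover (n := n) hn f g hfg hW hfib hny
    · intro y W hW hfib hny
      exact Vale.Agent.P260.H283.top_local (n := n) hn f g hfg hW hfib hny
    · intro S hS hS2 hcase
      have hs := Vale.Agent.P260.H283.top_surj (n := n) hn f g hfg
      have hc : ∀ y, IsConnected (f ⁻¹' {y}) := by
        rcases hcase with ⟨hfib, hoff⟩ | ⟨hfin, hoff⟩
        · exact Vale.Agent.P260.H283.top_all (n := n) hn f g hfg hS hfib hoff hS2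
        · have hsub : ∀ y ∉ S, (f ⁻¹' {y}).Subsingleton := by
            intro y hy
            by_contra hny
            obtain ⟨V, hVo, ⟨v, hv⟩, hVS, m, hm, hm3, U, -, hd, hV, hU⟩ :=
              Vale.Agent.P260.H283.top_cover (n := n) hn f g hfg (hS.isOpen_compl.mem_nhds hy)
                (fun z hz => hfin z hz) hny
            obtain ⟨z, hzV, hz⟩ := mem_closure_iff.1 (hoff (hVS hv)) V hVo hv
            refine hz ?_
            rw [Vale.Agent.P260.H283.card_fibre hd hV hU hzV]
            exact ⟨hm, hm3⟩
          exact Vale.Agent.P260.H283.top_all (n := n) hn f g hfg hS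
            (fun y hy => Or.inl (hsub y hy).isPreconnected)
            (fun y hy => subset_closure (Or.inl (hsub y hy).isPreconnected)) hS2
      exact ⟨hc, fun ht => Vale.Agent.P260.H283.homeo_of_fibres f hs
        (fun y => (hc y).isPreconnected) ht⟩
    · constructor
      · rintro ⟨e, he⟩
        refine ⟨e, he, fun y t ht _ => (hone e y).anti ht, ?_⟩
        have : {y | ((e : C(M, N)) ⁻¹' {y}).encard ≤ 2} = univ := by
          refine eq_univ_of_forall fun y => ?_
          exact (Set.encard_le_one_iff_subsingleton.2 (hone e y)).trans (by norm_num)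
        rw [this]
        exact dense_univ
      · rintro ⟨f', hf', ht, h2⟩
        exact hto f' hf' (Vale.Agent.P260.H283.top_two (n := n) hn f' g (hsec f' hf') ht h2)
    · constructor
      · rintro ⟨e, he⟩
        refine ⟨e, he, fun y => (hone e y).finite, ?_⟩
        have : {y | ¬ (Odd ((e : C(M, N)) ⁻¹' {y}).ncard ∧
            3 ≤ ((e : C(M, N)) ⁻¹' {y}).ncard)} = univ := by
          refine eq_univ_of_forall fun y => ?_
          rintro ⟨-, h3⟩
          have h1 := (Set.ncard_le_one (hone e y).finite).2 (fun a ha b hb => hone e y ha hb)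
          omega
        rw [this]
        exact dense_univ
      · rintro ⟨f', hf', hfin, h2⟩
        exact hto f' hf' (Vale.Agent.P260.H283.top_fin (n := n) hn f' g (hsec f' hf') hfin h2)
    · intro hgf hrec
      exact Vale.Agent.P260.H283.top_rec (n := n) hn f g hfg hgf hrec
  · intro M N _ _ _ _ _ _ _ H
    exact Vale.Agent.P260.H283.lip_homothety hn H
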