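import Vale.Agent.P260.R3.H149.Fin

/-!
# Volume rigidity of homotopy equivalences onto closed manifolds

Let `N` be a closed topological manifold of dimension `n ≥ 1`, `M` a compact metrizable space (for
instance a closed manifold), and let `f : M → N` be a map which has a homotopy section, for instance
a homotopy equivalence.

* (1) If `f` does not increase volume for Borel measures `μ` (positive on nonempty open sets) on `M`
  and `ν` on `N` with `μ(M) ≤ ν(N) < ∞`, then `f` maps `μ` to `ν` and all fibres of `f` are
  connected.
* (2) If moreover `f` is Hölder continuous for some metrics with an exponent larger than `1 - 1/n`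
  (for instance Lipschitz), `μ` has positive lower `n`-density and `ν` has finite upper `n`-density
  at every point, then `f` is a homeomorphism. If `f` is Lipschitz, the densities are uniform and
  `N` is linearly connected, then the inverse is Lipschitz.
* (3) Limits: let `P` be a homotopy invariant set of maps with homotopy sections (the homotopy
  class of a homotopy equivalence, or the set of all of them). For `μ` and `ν` as in (2) with
  `μ(M) ≤ ν(N)`, the set `P` contains a homeomorphism if it contains, for every `ε > 0`, a map which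
  increases volumes by at most `ε` and is Hölder continuous with a constant and an exponent larger
  than `1 - 1/n` which do not depend on `ε`.
* (4) Gap: for metrics on `M` and `N` whose Hausdorff measures have such densities, either `P`
  contains a homeomorphism, or `Lip(f)ⁿ Hⁿ(M) > (1 + ε) Hⁿ(N)` for all `f` in `P` and a fixed
  `ε > 0`.
* (5) For a metric on `N` with positive and finite `n`-densities: `P` contains a homeomorphism if
  and only if `M` has a metric with positive lower `n`-density for which there is no gap.
-/

open Set Topology MeasureTheory Vale.Agent.P260.R3.H149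

universe u v

theorem Vale.Agent.Results.P260.VolumeRigidity.result (n : ℕ) (hn : 0 < n) :
    (∀ (M : Type u) (N : Type v) [TopologicalSpace M] [TopologicalSpace.MetrizableSpace M]
      [CompactSpace M] [MeasurableSpace M] [BorelSpace M]
      [TopologicalSpace N] [T2Space N] [CompactSpace N]
      [ChartedSpace (EuclideanSpace ℝ (Fin n)) N] [MeasurableSpace N] [BorelSpace N]
      (f : C(M, N)) (g : C(N, M)), (f.comp g).Homotopic (ContinuousMap.id N) →
      ∀ (μ : Measure M) (ν : Measure N), (∀ U : Set M, IsOpen U → U.Nonempty → μ U ≠ 0) →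
        ν univ ≠ ⊤ → NoExpansion μ ν f → μ.map f = ν ∧ ∀ y, IsConnected (f ⁻¹' {y})) ∧
    (∀ (M : Type u) (N : Type v) [MetricSpace M] [CompactSpace M] [MeasurableSpace M]
      [BorelSpace M] [MetricSpace N] [CompactSpace N]
      [ChartedSpace (EuclideanSpace ℝ (Fin n)) N] [MeasurableSpace N] [BorelSpace N],
      (∀ (f : C(M, N)) (g : C(N, M)), (f.comp g).Homotopic (ContinuousMap.id N) →
        ∀ (μ : Measure M) (ν : Measure N), NoExpansion μ ν f →
          (∀ K α : NNReal, (n : ℝ) < n * α + 1 → HolderWith K α f →
            LowerDensity n μ → UpperDensity n ν → IsHomeomorph f) ∧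
          (∀ (K : NNReal) (c C r₀ L : ℝ), LipschitzWith K f → 0 < c → 0 < r₀ →
            (∀ x r, 0 < r → r < r₀ → ENNReal.ofReal (c * r ^ n) ≤ μ (Metric.ball x r)) →
            (∀ y r, 0 < r → r < r₀ → ν (Metric.ball y r) ≤ ENNReal.ofReal (C * r ^ n)) →
            (∀ y y' : N, ∃ S : Set N, IsConnected S ∧ y ∈ S ∧ y' ∈ S ∧
              S ⊆ Metric.closedBall y (L * dist y y')) →
            ∃ (e : M ≃ₜ N) (K' : NNReal), (e : C(M, N)) = f ∧ LipschitzWith K' e.symm)) ∧
      (∀ P : C(M, N) → Prop, SectionClass P →
        (∀ (μ : Measure M) (ν : Measure N) (K α : NNReal), (n : ℝ) < n * α + 1 →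
          LowerDensity n μ → UpperDensity n ν → μ univ ≤ ν univ →
          (∀ ε : ℝ, 0 < ε → ∃ f : C(M, N), P f ∧ HolderWith K α f ∧
            ∀ A : Set M, IsCompact A → ν (f '' A) ≤ μ A + ENNReal.ofReal ε) →
          ∃ e : M ≃ₜ N, P (e : C(M, N))) ∧
        (LowerDensity n (Measure.hausdorffMeasure (n : ℝ) : Measure M) →
          UpperDensity n (Measure.hausdorffMeasure (n : ℝ) : Measure N) → VolumeGap n P ∨
          ∃ (e : M ≃ₜ N) (K : NNReal), P (e : C(M, N)) ∧ LipschitzWith K e ∧
            (K : ENNReal) ^ n * Measure.hausdorffMeasure (n : ℝ) (univ : Set M) =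
              Measure.hausdorffMeasure (n : ℝ) (univ : Set N)))) ∧
    (∀ (M : Type u) (N : Type v) [TopologicalSpace M] [CompactSpace M]
      [MetricSpace N] [CompactSpace N]
      [ChartedSpace (EuclideanSpace ℝ (Fin n)) N] [MeasurableSpace N] [BorelSpace N],
      LowerDensity n (Measure.hausdorffMeasure (n : ℝ) : Measure N) →
      UpperDensity n (Measure.hausdorffMeasure (n : ℝ) : Measure N) →
      ∀ P : C(M, N) → Prop, SectionClass P →
        ((∃ e : M ≃ₜ N, P (e : C(M, N))) ↔
          ∃ (M' : Type v) (_ : MetricSpace M') (_ : MeasurableSpace M') (_ : BorelSpace M')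
            (h : M' ≃ₜ M), LowerDensity n (Measure.hausdorffMeasure (n : ℝ) : Measure M') ∧
            ¬ VolumeGap n (fun F : C(M', N) => P (F.comp (h.symm : C(M, M')))))) := by
  have hpos : ∀ α : NNReal, (n : ℝ) < n * α + 1 → 0 < α := by
    intro α hα
    rw [pos_iff_ne_zero]
    rintro rfl
    have h1 : (1 : ℝ) ≤ n := by exact_mod_cast hn
    rw [NNReal.coe_zero, mul_zero, zero_add] at hα
    linarith
  refine ⟨?_, ?_, ?_⟩
  · intro M N _ _ _ _ _ _ _ _ _ _ _ f g hfg μ ν hpos hfin hle
    exact measure_top hn f g hfg μ ν hpos hle.1 hle.2 hfin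
  · intro M N _ _ _ _ _ _ _ _ _
    refine ⟨?_, ?_⟩
    · intro f g hfg μ ν hle
      refine ⟨fun K α hα hK hlow hup => ?_, ?_⟩
      · exact measure_metric hn f g hfg μ ν hle.1 hle.2 hα (hpos α hα) hK hlow hup
      · intro K c C r₀ L hK hc hr₀ hlow hup hllc
        exact bilip_metric hn f g hfg μ ν hle.1 hle.2 hK hc hr₀ hlow hup hllc
    · intro P hP
      refine ⟨?_, fun hlow hup => homeo_or_gap hn P hP hlow hup⟩
      intro μ ν K α hα hlow hup htot hF
      exact lim_class hn P hP μ ν hα (hpos α hα) hlow hup htot hF
  · intro M N _ _ _ _ _ _ _ hlow hup P hP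
    exact iff_metric hn P hP hlow hup
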